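import Vale.Agent.P141.H876.ShiftA

/-!
# P141, line (A): the energy of the slot at one scale

Letters of `H841.Lay` and `H876.WinS`. One point `y`, one scale `k`.

* `sum_Rm` : orthogonality of the layers over `x₀`;
* `en_Rm` : **the energy of the slot on the standard grid**, weights with bounded cell sums;
* `en_Rs` : the same for the slot on the shifted grid, up to the deviation (`S1`);
* `en_Rs_sum` : summed over `y` with (S1).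
-/

namespace Vale.Agent.P141.H185

open Finset Matrix
open Vale.Agent.P141.PL (iv ix hs mem_iv ix_ix card_iv)
open Vale.Agent.P141.H922 (ck iv_iv)
open Vale.Agent.P141.H43 (avv nsq nsq_nonneg)
open Vale.Agent.P141.H841 (Lm Rm Rs Nn Nn_nonneg om om_nonneg st st_bd dev_le Lm_le nsq_add_le
  nsq_sub_le nsq_zero)
open Vale.Agent.P141.H876 (En En_nonneg wn wt_Nn wt_cell near_root)

noncomputable section

variable {ι : Type*} [Fintype ι]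

variable {Mx : ℕ → ℤ → Matrix ι ι ℝ} {o x1 T M3 : ℤ} {n : ℕ} {s : ℕ → ℤ → ℤ → ℝ}

theorem sum_halves (k : ℕ) (m : ℤ) {β : Type*} [AddCommMonoid β] (f : ℤ → β) :
    ∑ x ∈ iv (k + 1) m, f x = ∑ x ∈ iv k (2 * m), f x + ∑ x ∈ iv k (2 * m + 1), f x := by
  classical
  have h := iv_iv (k := k) (K := k + 1) (by omega) m f
  rw [← h]
  have e : k + 1 - k = 1 := by omega
  rw [e]
  have e2 : iv 1 m = {2 * m, 2 * m + 1} := by
    ext x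
    rw [mem_iv, mem_insert, mem_singleton]
    unfold PL.ix
    constructor
    · intro hx
      omega
    · intro hx
      omega
  rw [e2, sum_pair (by omega)]

theorem hs_left {k : ℕ} {m x : ℤ} (hx : x ∈ iv k (2 * m)) : hs (k + 1) x = 1 := by
  rw [mem_iv] at hx
  unfold PL.hs
  rw [Nat.add_sub_cancel, hx, if_pos (by omega)]

theorem hs_right {k : ℕ} {m x : ℤ} (hx : x ∈ iv k (2 * m + 1)) : hs (k + 1) x = -1 := by
  rw [mem_iv] at hx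
  unfold PL.hs
  rw [Nat.add_sub_cancel, hx, if_neg (by omega)]

theorem sum_hs (k : ℕ) (m : ℤ) : ∑ x ∈ iv (k + 1) m, hs (k + 1) x = 0 := by
  rw [sum_halves, sum_congr rfl fun x hx => hs_left hx, sum_congr rfl fun x hx => hs_right hx,
    sum_const, sum_const, card_iv, card_iv]
  simp

omit [Fintype ι] in
/-- a layer depends only on the finer cell of `x₀` -/
theorem Lm_ix {i : ℕ} {x0 y0 : ℤ} (h : ix i x0 = ix i y0) (p : ℤ) :
    Lm Mx o x1 s (i + 1) x0 p = Lm Mx o x1 s (i + 1) y0 p := by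
  have h1 : ix (i + 1) x0 = ix (i + 1) y0 := by
    rw [← ix_ix i 1, ← ix_ix i 1 y0, h]
  have h2 : hs (i + 1) x0 = hs (i + 1) y0 := by
    unfold PL.hs
    rw [Nat.add_sub_cancel, h]
  unfold H841.Lm
  rw [h1, h2]

omit [Fintype ι] in
/-- the slot at the time `j` depends only on the cell of scale `j` of `x₀` -/
theorem Rm_ix {j : ℕ} {x0 y0 : ℤ} (h : ix j x0 = ix j y0) (N : ℕ) (p : ℤ) :
    Rm Mx o x1 s N j x0 p = Rm Mx o x1 s N j y0 p := by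
  unfold H841.Rm
  refine sum_congr rfl fun i hi => ?_
  have hi' := (mem_Ico.1 hi).1
  refine Lm_ix ?_ p
  have e : ∀ z : ℤ, ix i z = ix (i - j) (ix j z) := fun z => by
    rw [ix_ix, Nat.add_sub_cancel' hi']
  rw [e, e, h]

/-- the sum of a function of the cells -/
theorem sum_cell {k : ℕ} (hk : k ≤ n) (T : ℤ) {W : ℤ → ℝ} {e : ℝ}
    (hW : ∀ j, ∑ x ∈ iv k j, W x ≤ e * 2 ^ k) {f : ℤ → ℝ} (hf0 : ∀ x, 0 ≤ f x)
    (hf : ∀ x y, ix k x = ix k y → f x = f y) :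
    ∑ x ∈ iv n T, W x * f x ≤ e * ∑ x ∈ iv n T, f x := by
  rw [← iv_iv hk, ← iv_iv hk, mul_sum]
  refine sum_le_sum fun a _ => ?_
  have e1 : ∀ x ∈ iv k a, f x = f (2 ^ k * a) := by
    intro x hx
    rw [mem_iv] at hx
    refine hf _ _ ?_
    rw [hx]
    unfold PL.ix
    rw [Int.mul_ediv_cancel_left _ (by positivity)]
  rw [sum_congr rfl fun x hx => by rw [e1 x hx], ← sum_mul, sum_congr rfl e1, sum_const, card_iv,
    nsmul_eq_mul]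
  push_cast
  calc _ ≤ e * 2 ^ k * f (2 ^ k * a) := mul_le_mul_of_nonneg_right (hW a) (hf0 _)
    _ = _ := by ring

/-- one step of the orthogonality -/
theorem sum_step {j : ℕ} (hj : j < n) (T p : ℤ) (w : ι → ℝ) :
    ∑ x0 ∈ iv n T, nsq (Rm Mx o x1 s n j x0 p *ᵥ w) =
      ∑ x0 ∈ iv n T, nsq (Lm Mx o x1 s (j + 1) x0 p *ᵥ w) +
        ∑ x0 ∈ iv n T, nsq (Rm Mx o x1 s n (j + 1) x0 p *ᵥ w) := by
  have e0 : ∀ x0, Rm Mx o x1 s n j x0 p = Lm Mx o x1 s (j + 1) x0 p + Rm Mx o x1 s n (j + 1) x0 p := by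
    intro x0
    unfold H841.Rm
    rw [sum_eq_sum_Ico_succ_bot hj]
  rw [← sum_add_distrib]
  rw [← iv_iv (k := j + 1) hj, ← iv_iv (k := j + 1) hj]
  refine sum_congr rfl fun a _ => ?_
  set c := Rm Mx o x1 s n (j + 1) (2 ^ (j + 1) * a) p *ᵥ w with hc
  set d := ((s (j + 1) a (ix (j + 1) p) * hs (j + 1) p) •
    Mx (j + 1) (ck o x1 p (j + 1) - a)) *ᵥ w with hd
  have e1 : ∀ x ∈ iv (j + 1) a, Rm Mx o x1 s n (j + 1) x p *ᵥ w = c := by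
    intro x hx
    rw [mem_iv] at hx
    rw [hc, Rm_ix (y0 := 2 ^ (j + 1) * a)]
    rw [hx]
    unfold PL.ix
    rw [Int.mul_ediv_cancel_left _ (by positivity)]
  have e2 : ∀ x ∈ iv (j + 1) a, Lm Mx o x1 s (j + 1) x p *ᵥ w = hs (j + 1) x • d := by
    intro x hx
    rw [mem_iv] at hx
    rw [hd]
    unfold H841.Lm
    rw [hx, ← smul_mulVec, smul_smul]
    congr 2
    ring
  have e3 : ∀ x ∈ iv (j + 1) a, nsq (Rm Mx o x1 s n j x p *ᵥ w) =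
      nsq (Lm Mx o x1 s (j + 1) x p *ᵥ w) + nsq (Rm Mx o x1 s n (j + 1) x p *ᵥ w) +
        hs (j + 1) x * (2 * (d ⬝ᵥ c)) := by
    intro x hx
    rw [e0 x, add_mulVec, H43.nsq_add, e1 x hx, e2 x hx, smul_dotProduct, smul_eq_mul]
    ring
  rw [sum_congr rfl e3, sum_add_distrib, ← sum_mul, sum_hs, zero_mul, add_zero]

/-- **Orthogonality of the layers over `x₀`.** -/
theorem sum_Rm {j : ℕ} (hj : j ≤ n) (T p : ℤ) (w : ι → ℝ) :
    ∑ x0 ∈ iv n T, nsq (Rm Mx o x1 s n j x0 p *ᵥ w) =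
      ∑ i ∈ Ico j n, ∑ x0 ∈ iv n T, nsq (Lm Mx o x1 s (i + 1) x0 p *ᵥ w) := by
  refine Nat.decreasingInduction' (P := fun j => ∑ x0 ∈ iv n T, nsq (Rm Mx o x1 s n j x0 p *ᵥ w) =
      ∑ i ∈ Ico j n, ∑ x0 ∈ iv n T, nsq (Lm Mx o x1 s (i + 1) x0 p *ᵥ w)) ?_ hj ?_
  · intro k hk _ ih
    rw [sum_step hk, ih, sum_eq_sum_Ico_succ_bot hk
      (fun i => ∑ x0 ∈ iv n T, nsq (Lm Mx o x1 s (i + 1) x0 p *ᵥ w))]
  · rw [Ico_self, sum_empty]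
    refine sum_eq_zero fun x0 _ => ?_
    unfold H841.Rm
    rw [Ico_self, sum_empty, zero_mulVec, nsq_zero]

/-- **The energy of the slot on the standard grid**, one point, one scale. -/
theorem en_Rm (hs1 : ∀ k a b, |s k a b| ≤ 1) (ho : o = 1 ∨ o = -1) {Q : (ι → ℝ) → ℝ}
    (hX : ∀ a, ∑ i ∈ range n, En Mx n T x1 M3 (i + 1) a ≤ 2 ^ n * Q a)
    {W : ℤ → ℝ} {e : ℝ} (he : 0 ≤ e) {k : ℕ} (hk : k ≤ n)
    (hW : ∀ j, ∑ x0 ∈ iv k j, W x0 ≤ e * 2 ^ k) {p : ℤ} (h1 : M3 - 1 ≤ ix n p)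
    (h2 : ix n p ≤ M3 + 1) (w : ι → ℝ) :
    ∑ x0 ∈ iv n T, W x0 * nsq (Rm Mx o x1 s n k x0 p *ᵥ w) ≤ e * (2 ^ n * Q w) := by
  refine (sum_cell hk T hW (fun x => nsq_nonneg _) fun x y h => by rw [Rm_ix h]).trans ?_
  refine mul_le_mul_of_nonneg_left ?_ he
  rw [sum_Rm hk]
  refine le_trans ?_ (hX w)
  have h3 : ∀ i ∈ Ico k n, ∑ x0 ∈ iv n T, nsq (Lm Mx o x1 s (i + 1) x0 p *ᵥ w) ≤
      En Mx n T x1 M3 (i + 1) w := by
    intro i hi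
    have hi' := (mem_Ico.1 hi).2
    have h4 := wt_Nn (Mx := Mx) (x1 := x1) (T := T) (M3 := M3) (W := fun _ => 1) (e := 1) (k := 0)
      ho (fun _ => zero_le_one) (fun j => by simp) (i := i + 1) (by omega) h1 h2 w
    rw [Nat.zero_sub, pow_zero, mul_one, one_mul] at h4
    refine le_trans (sum_le_sum fun x0 _ => ?_) h4
    rw [one_mul]
    exact Lm_le hs1 (i + 1) x0 p w
  refine (sum_le_sum h3).trans ?_
  refine sum_le_sum_of_subset_of_nonneg (fun i hi => ?_) fun i _ _ => En_nonneg _ _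
  rw [mem_range]
  exact (mem_Ico.1 hi).2

/-- **The energy of the slot on the shifted grid**, one point, one scale. -/
theorem en_Rs (hs1 : ∀ k a b, |s k a b| ≤ 1) (ho : o = 1 ∨ o = -1) {Q : (ι → ℝ) → ℝ}
    (hX : ∀ a, ∑ i ∈ range n, En Mx n T x1 M3 (i + 1) a ≤ 2 ^ n * Q a)
    {W : ℤ → ℝ} {e : ℝ} (he : 0 ≤ e) {k : ℕ} (hk : k ≤ n) (hW0 : ∀ x, 0 ≤ W x)
    (hW : ∀ j, ∑ x0 ∈ iv k j, W x0 ≤ e * 2 ^ k) (sh : ℤ) {y : ℤ} (hy : y ∈ iv n M3) (w : ι → ℝ) :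
    ∑ x0 ∈ iv n T, W x0 * nsq (Rs Mx o x1 s n sh k x0 (ix k (y - sh)) *ᵥ w) ≤
      2 * (e * (2 ^ n * Q w)) + 2 * ∑ x0 ∈ iv n T, W x0 *
        nsq ((Rs Mx o x1 s n sh k x0 (ix k (y - sh)) - Rm Mx o x1 s n k x0 y) *ᵥ w) := by
  rw [mem_iv] at hy
  have h1 := en_Rm (s := s) hs1 ho hX he hk hW (p := y) (by omega) (by omega) w
  have h2 : ∀ x0 ∈ iv n T, W x0 * nsq (Rs Mx o x1 s n sh k x0 (ix k (y - sh)) *ᵥ w) ≤
      2 * (W x0 * nsq (Rm Mx o x1 s n k x0 y *ᵥ w)) + 2 * (W x0 *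
        nsq ((Rs Mx o x1 s n sh k x0 (ix k (y - sh)) - Rm Mx o x1 s n k x0 y) *ᵥ w)) := by
    intro x0 _
    have e1 : Rs Mx o x1 s n sh k x0 (ix k (y - sh)) *ᵥ w = Rm Mx o x1 s n k x0 y *ᵥ w +
        (Rs Mx o x1 s n sh k x0 (ix k (y - sh)) - Rm Mx o x1 s n k x0 y) *ᵥ w := by
      rw [sub_mulVec]
      abel
    have h3 := nsq_add_le (Rm Mx o x1 s n k x0 y *ᵥ w)
      ((Rs Mx o x1 s n sh k x0 (ix k (y - sh)) - Rm Mx o x1 s n k x0 y) *ᵥ w)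
    rw [← e1] at h3
    have h4 := mul_le_mul_of_nonneg_left h3 (hW0 x0)
    linarith
  refine (sum_le_sum h2).trans ?_
  rw [sum_add_distrib, ← mul_sum, ← mul_sum]
  linarith

/-- **The energies at every scale, summed over the points**, with (S1). -/
theorem en_Rs_sum (hs1 : ∀ k a b, |s k a b| ≤ 1) (ho : o = 1 ∨ o = -1) {Q : (ι → ℝ) → ℝ}
    (hX : ∀ a, ∑ i ∈ range n, En Mx n T x1 M3 (i + 1) a ≤ 2 ^ n * Q a)
    {W : ℕ → ℤ → ℤ → ℝ} {e : ℝ} (he : 0 ≤ e) (hW0 : ∀ k x0 y, 0 ≤ W k x0 y)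
    (hW : ∀ k ≤ n, ∀ j y, ∑ x0 ∈ iv k j, W k x0 y ≤ e * 2 ^ k)
    {θ : ℕ → ℤ → ℝ} (hθ0 : ∀ k m, 0 ≤ θ k m)
    (hθ : ∀ k m a, nsq (Mx k m *ᵥ a) ≤ θ k m * nsq a) {Θ : ℝ}
    (hΘ : ∑ i ∈ range n, 2 ^ (i + 1) * ∑ R ∈ wn n T x1 M3, ∑ m ∈ iv (n - (i + 1)) R, θ (i + 1) m ≤
      Θ * 2 ^ n) {v : ℤ → ι → ℝ} {V : ℝ} (hV : ∀ y ∈ iv n M3, nsq (v y) ≤ V) (L : ℕ) (sh : ℤ)
    {k : ℕ} (hk : k ≤ n) :
    ∑ y ∈ iv n M3, ∑ x0 ∈ iv n T, W k x0 y *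
        nsq (Rs Mx o x1 s n sh k x0 (ix k (y - sh)) *ᵥ v y) ≤
      e * ((98 + 32 * (L : ℝ) ^ 3) * (2 ^ n * ∑ y ∈ iv n M3, Q (v y)) +
        128 * (((L : ℝ) + 2) ^ 2 + 2) / 2 ^ L * (V * Θ * 4 ^ n)) := by
  have h1 := H876.S1 hs1 ho hX he hW0 hW hθ0 hθ hΘ hV L sh
  have h2 : ∑ y ∈ iv n M3, ∑ x0 ∈ iv n T, W k x0 y *
      nsq ((Rs Mx o x1 s n sh k x0 (ix k (y - sh)) - Rm Mx o x1 s n k x0 y) *ᵥ v y) ≤
      ∑ y ∈ iv n M3, ∑ k ∈ range (n + 1), ∑ x0 ∈ iv n T, W k x0 y *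
        nsq ((Rs Mx o x1 s n sh k x0 (ix k (y - sh)) - Rm Mx o x1 s n k x0 y) *ᵥ v y) := by
    refine sum_le_sum fun y _ => ?_
    exact single_le_sum (f := fun k => ∑ x0 ∈ iv n T, W k x0 y *
        nsq ((Rs Mx o x1 s n sh k x0 (ix k (y - sh)) - Rm Mx o x1 s n k x0 y) *ᵥ v y))
      (fun k _ => sum_nonneg fun x0 _ => mul_nonneg (hW0 _ _ _) (nsq_nonneg _))
      (mem_range.2 (by omega))
  refine (sum_le_sum fun y hy => en_Rs (s := s) hs1 ho hX he hk (fun x => hW0 k x y)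
    (fun j => hW k hk j y) sh hy (v y)).trans ?_
  rw [sum_add_distrib, ← mul_sum, ← mul_sum, ← mul_sum, ← mul_sum]
  have h3 := h2.trans h1
  refine (add_le_add_right (mul_le_mul_of_nonneg_left h3 (by norm_num : (0 : ℝ) ≤ 2)) _).trans
    (le_of_eq ?_)
  ring

end

end Vale.Agent.P141.H185
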