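import Vale.Agent.P141.H185.EnRs

/-!
# P141, line (A): stopping times of the moving slot

Letters of `H841.Lay` and `H876.WinS`. One point `y`.

* `en_stop` : **weights `χ k x₀` of the scales with `∑ k, χ k x₀ ≤ 1`** : the weighted sum over
  all scales of the squares of the slot is at most the sum of the squares of the layers;
* `cnt` : number of the affected scales at and above a cell;
* `stop_num` : the affected scales of count at most `lam` cost at most `lam` times the layers.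
-/

namespace Vale.Agent.P141.H185

open Finset Matrix
open Vale.Agent.P141.PL (iv ix hs mem_iv ix_ix card_iv)
open Vale.Agent.P141.H922 (ck iv_iv)
open Vale.Agent.P141.H43 (avv nsq nsq_nonneg)
open Vale.Agent.P141.H841 (Lm Rm Rs Nn Nn_nonneg om om_nonneg st st_bd dev_le Lm_le nsq_add_le
  nsq_sub_le nsq_zero)
open Vale.Agent.P141.H876 (En En_nonneg wn wt_Nn wt_cell near_root)

noncomputable section

variable {ι : Type*} [Fintype ι]

variable {Mx : ℕ → ℤ → Matrix ι ι ℝ} {o x1 T M3 : ℤ} {n : ℕ} {s : ℕ → ℤ → ℤ → ℝ}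

/-- one weighted step of the orthogonality: the weight depends on the cell of scale `j + 1` -/
theorem sum_step_w {j : ℕ} (hj : j < n) (T p : ℤ) (w : ι → ℝ) {u : ℤ → ℝ}
    (hu : ∀ x y, ix (j + 1) x = ix (j + 1) y → u x = u y) :
    ∑ x0 ∈ iv n T, u x0 * nsq (Rm Mx o x1 s n j x0 p *ᵥ w) =
      ∑ x0 ∈ iv n T, u x0 * nsq (Lm Mx o x1 s (j + 1) x0 p *ᵥ w) +
        ∑ x0 ∈ iv n T, u x0 * nsq (Rm Mx o x1 s n (j + 1) x0 p *ᵥ w) := by
  have e0 : ∀ x0, Rm Mx o x1 s n j x0 p = Lm Mx o x1 s (j + 1) x0 p + Rm Mx o x1 s n (j + 1) x0 p := by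
    intro x0
    unfold H841.Rm
    rw [sum_eq_sum_Ico_succ_bot hj]
  rw [← sum_add_distrib]
  rw [← iv_iv (k := j + 1) hj, ← iv_iv (k := j + 1) hj]
  refine sum_congr rfl fun a _ => ?_
  set c := Rm Mx o x1 s n (j + 1) (2 ^ (j + 1) * a) p *ᵥ w with hc
  set d := ((s (j + 1) a (ix (j + 1) p) * hs (j + 1) p) •
    Mx (j + 1) (ck o x1 p (j + 1) - a)) *ᵥ w with hd
  have e4 : ix (j + 1) (2 ^ (j + 1) * a) = a := by
    unfold PL.ix
    rw [Int.mul_ediv_cancel_left _ (by positivity)]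
  have e1 : ∀ x ∈ iv (j + 1) a, Rm Mx o x1 s n (j + 1) x p *ᵥ w = c := by
    intro x hx
    rw [mem_iv] at hx
    rw [hc, Rm_ix (y0 := 2 ^ (j + 1) * a)]
    rw [hx, e4]
  have e2 : ∀ x ∈ iv (j + 1) a, Lm Mx o x1 s (j + 1) x p *ᵥ w = hs (j + 1) x • d := by
    intro x hx
    rw [mem_iv] at hx
    rw [hd]
    unfold H841.Lm
    rw [hx, ← smul_mulVec, smul_smul]
    congr 2
    ring
  have e3 : ∀ x ∈ iv (j + 1) a, u x * nsq (Rm Mx o x1 s n j x p *ᵥ w) =
      u x * nsq (Lm Mx o x1 s (j + 1) x p *ᵥ w) + u x * nsq (Rm Mx o x1 s n (j + 1) x p *ᵥ w) +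
        hs (j + 1) x * (u (2 ^ (j + 1) * a) * (2 * (d ⬝ᵥ c))) := by
    intro x hx
    rw [e0 x, add_mulVec, H43.nsq_add, e1 x hx, e2 x hx, smul_dotProduct, smul_eq_mul]
    rw [mem_iv] at hx
    rw [hu x (2 ^ (j + 1) * a) (by rw [hx, e4])]
    ring
  rw [sum_congr rfl e3, sum_add_distrib, ← sum_mul, sum_hs, zero_mul, add_zero]

/-- **Stopping weights.** -/
theorem en_stop {W : ℕ → ℤ → ℝ} {e : ℝ} (he : 0 ≤ e)
    (hW : ∀ k ≤ n, ∀ j, ∑ x ∈ iv k j, W k x ≤ e * 2 ^ k) {χ : ℕ → ℤ → ℝ} (hχ0 : ∀ k x, 0 ≤ χ k x)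
    (hχ : ∀ k x y, ix k x = ix k y → χ k x = χ k y) (hχ1 : ∀ x, ∑ k ∈ range n, χ k x ≤ 1) (T p : ℤ)
    (w : ι → ℝ) :
    ∑ k ∈ range n, ∑ x0 ∈ iv n T, χ k x0 * (W k x0 * nsq (Rm Mx o x1 s n k x0 p *ᵥ w)) ≤
      e * ∑ i ∈ range n, ∑ x0 ∈ iv n T, nsq (Lm Mx o x1 s (i + 1) x0 p *ᵥ w) := by
  have key : ∀ j ≤ n, ∑ k ∈ Ico j n, ∑ x0 ∈ iv n T,
      χ k x0 * (W k x0 * nsq (Rm Mx o x1 s n k x0 p *ᵥ w)) +
      e * ∑ x0 ∈ iv n T, (1 - ∑ k ∈ Ico j n, χ k x0) * nsq (Rm Mx o x1 s n j x0 p *ᵥ w) ≤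
      e * ∑ i ∈ Ico j n, ∑ x0 ∈ iv n T, nsq (Lm Mx o x1 s (i + 1) x0 p *ᵥ w) := by
    intro j hj
    refine Nat.decreasingInduction' (P := fun j => ∑ k ∈ Ico j n, ∑ x0 ∈ iv n T,
      χ k x0 * (W k x0 * nsq (Rm Mx o x1 s n k x0 p *ᵥ w)) +
      e * ∑ x0 ∈ iv n T, (1 - ∑ k ∈ Ico j n, χ k x0) * nsq (Rm Mx o x1 s n j x0 p *ᵥ w) ≤
      e * ∑ i ∈ Ico j n, ∑ x0 ∈ iv n T, nsq (Lm Mx o x1 s (i + 1) x0 p *ᵥ w)) ?_ hj ?_
    · intro j hj' _ ih
      rw [sum_eq_sum_Ico_succ_bot hj' (fun k => ∑ x0 ∈ iv n T,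
        χ k x0 * (W k x0 * nsq (Rm Mx o x1 s n k x0 p *ᵥ w))),
        sum_eq_sum_Ico_succ_bot hj' (fun i => ∑ x0 ∈ iv n T,
          nsq (Lm Mx o x1 s (i + 1) x0 p *ᵥ w))]
      have e1 : ∀ x0, ∑ k ∈ Ico j n, χ k x0 = χ j x0 + ∑ k ∈ Ico (j + 1) n, χ k x0 := fun x0 =>
        sum_eq_sum_Ico_succ_bot hj' _
      -- the mass stopped at `j`
      have a1 : ∑ x0 ∈ iv n T, χ j x0 * (W j x0 * nsq (Rm Mx o x1 s n j x0 p *ᵥ w)) ≤
          e * ∑ x0 ∈ iv n T, χ j x0 * nsq (Rm Mx o x1 s n j x0 p *ᵥ w) := by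
        have h := sum_cell (n := n) hj'.le T (W := W j) (e := e) (fun i => hW j hj'.le i)
          (f := fun x0 => χ j x0 * nsq (Rm Mx o x1 s n j x0 p *ᵥ w))
          (fun x => mul_nonneg (hχ0 _ _) (nsq_nonneg _))
          (fun x y h => by rw [hχ j x y h, Rm_ix h])
        refine le_trans (le_of_eq (sum_congr rfl fun x0 _ => ?_)) h
        ring
      -- the step
      have a2 := sum_step_w (Mx := Mx) (o := o) (x1 := x1) (s := s) hj' T p w
        (u := fun x0 => 1 - ∑ k ∈ Ico (j + 1) n, χ k x0) (fun x y h => by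
          have h2 : ∀ k ∈ Ico (j + 1) n, χ k x = χ k y := by
            intro k hk
            have hk' := (mem_Ico.1 hk).1
            refine hχ k x y ?_
            have e : ∀ z : ℤ, ix k z = ix (k - (j + 1)) (ix (j + 1) z) := fun z => by
              rw [ix_ix, Nat.add_sub_cancel' hk']
            rw [e, e, h]
          rw [sum_congr rfl h2])
      have a3 : ∑ x0 ∈ iv n T, (1 - ∑ k ∈ Ico (j + 1) n, χ k x0) *
          nsq (Lm Mx o x1 s (j + 1) x0 p *ᵥ w) ≤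
          ∑ x0 ∈ iv n T, nsq (Lm Mx o x1 s (j + 1) x0 p *ᵥ w) := by
        refine sum_le_sum fun x0 _ => ?_
        have h1 : 0 ≤ ∑ k ∈ Ico (j + 1) n, χ k x0 := sum_nonneg fun k _ => hχ0 _ _
        calc _ ≤ 1 * nsq (Lm Mx o x1 s (j + 1) x0 p *ᵥ w) :=
              mul_le_mul_of_nonneg_right (by linarith) (nsq_nonneg _)
          _ = _ := one_mul _
      have a4 : ∑ x0 ∈ iv n T, (1 - ∑ k ∈ Ico j n, χ k x0) *
          nsq (Rm Mx o x1 s n j x0 p *ᵥ w) =
          ∑ x0 ∈ iv n T, (1 - ∑ k ∈ Ico (j + 1) n, χ k x0) *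
            nsq (Rm Mx o x1 s n j x0 p *ᵥ w) -
          ∑ x0 ∈ iv n T, χ j x0 * nsq (Rm Mx o x1 s n j x0 p *ᵥ w) := by
        rw [← sum_sub_distrib]
        refine sum_congr rfl fun x0 _ => ?_
        rw [e1 x0]
        ring
      rw [a4, a2]
      have a5 := mul_le_mul_of_nonneg_left a3 he
      rw [mul_sub, mul_add, mul_add]
      linarith
    · rw [Ico_self, sum_empty, sum_empty, mul_zero, zero_add]
      refine le_of_eq ?_
      rw [mul_eq_zero]
      right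
      refine sum_eq_zero fun x0 _ => ?_
      unfold H841.Rm
      rw [Ico_self, sum_empty, sum_empty, zero_mulVec, nsq_zero, mul_zero]
  have h := key 0 (Nat.zero_le n)
  rw [← range_eq_Ico] at h
  refine le_trans (le_add_of_nonneg_right ?_) h
  refine mul_nonneg he (sum_nonneg fun x0 _ => mul_nonneg ?_ (nsq_nonneg _))
  have := hχ1 x0
  linarith

open scoped Classical in
/-- the number of the affected scales at and above the cell `q` of scale `k` -/
def cnt (a : ℕ → ℤ → Prop) (n k : ℕ) (q : ℤ) : ℕ :=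
  ((Ico k n).filter fun l => a l (ix (l - k) q)).card

open scoped Classical in
theorem cnt_card (a : ℕ → ℤ → Prop) (n lam : ℕ) (x : ℤ) :
    ((range n).filter fun k => a k (ix k x) ∧ cnt a n k (ix k x) ≤ lam).card ≤ lam := by
  set F := (range n).filter fun k => a k (ix k x) ∧ cnt a n k (ix k x) ≤ lam with hF
  rcases F.eq_empty_or_nonempty with h | h
  · rw [h, card_empty]
    exact Nat.zero_le _
  · set k₀ := F.min' h with hk₀
    have h1 : k₀ ∈ F := F.min'_mem h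
    have h2 := h1
    rw [hF, mem_filter] at h2
    refine le_trans (card_le_card fun k hk => ?_) h2.2.2
    have h3 : k₀ ≤ k := F.min'_le k hk
    rw [hF, mem_filter, mem_range] at hk
    rw [mem_filter, mem_Ico]
    refine ⟨⟨h3, hk.1⟩, ?_⟩
    rw [ix_ix, Nat.add_sub_cancel' h3]
    exact hk.2.1

open scoped Classical in
/-- **(X2)** : the affected scales of count at most `lam`. -/
theorem stop_num (hs1 : ∀ k a b, |s k a b| ≤ 1) (ho : o = 1 ∨ o = -1) {W : ℕ → ℤ → ℝ} {e : ℝ}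
    (he : 0 ≤ e) (hW : ∀ k ≤ n, ∀ j, ∑ x ∈ iv k j, W k x ≤ e * 2 ^ k)
    (a : ℕ → ℤ → Prop) {p : ℤ} (h1 : M3 - 1 ≤ ix n p) (h2 : ix n p ≤ M3 + 1) (w : ι → ℝ)
    (lam : ℕ) :
    ∑ k ∈ range n, ∑ x0 ∈ iv n T, (if a k (ix k x0) ∧ cnt a n k (ix k x0) ≤ lam then
        W k x0 * nsq (Rm Mx o x1 s n k x0 p *ᵥ w) else 0) ≤
      lam * (e * ∑ i ∈ range n, En Mx n T x1 M3 (i + 1) w) := by
  have hL : ∑ i ∈ range n, ∑ x0 ∈ iv n T, nsq (Lm Mx o x1 s (i + 1) x0 p *ᵥ w) ≤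
      ∑ i ∈ range n, En Mx n T x1 M3 (i + 1) w := by
    refine sum_le_sum fun i hi => ?_
    rw [mem_range] at hi
    have h4 := wt_Nn (Mx := Mx) (x1 := x1) (T := T) (M3 := M3) (W := fun _ => 1) (e := 1) (k := 0)
      ho (fun _ => zero_le_one) (fun j => by simp) (i := i + 1) (by omega) h1 h2 w
    rw [Nat.zero_sub, pow_zero, mul_one, one_mul] at h4
    refine le_trans (sum_le_sum fun x0 _ => ?_) h4
    rw [one_mul]
    exact Lm_le hs1 (i + 1) x0 p w
  rcases Nat.eq_zero_or_pos lam with hl | hl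
  · subst hl
    rw [Nat.cast_zero, zero_mul]
    refine le_of_eq (sum_eq_zero fun k hk => sum_eq_zero fun x0 _ => ?_)
    rw [mem_range] at hk
    rw [if_neg]
    rintro ⟨h3, h4⟩
    have h5 := Nat.le_zero.1 h4
    unfold cnt at h5
    rw [card_eq_zero] at h5
    have h6 : k ∈ (Ico k n).filter fun l => a l (ix (l - k) (ix k x0)) := by
      rw [mem_filter, mem_Ico]
      refine ⟨⟨le_rfl, hk⟩, ?_⟩
      rw [Nat.sub_self, PL.ix_zero]
      exact h3
    rw [h5] at h6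
    simp at h6
  · have hl' : (0 : ℝ) < lam := by exact_mod_cast hl
    set χ : ℕ → ℤ → ℝ := fun k x => if a k (ix k x) ∧ cnt a n k (ix k x) ≤ lam then (lam : ℝ)⁻¹
      else 0 with hχd
    have hχ0 : ∀ k x, 0 ≤ χ k x := by
      intro k x
      simp only [hχd]
      split_ifs
      · positivity
      · exact le_rfl
    have hχ : ∀ k x y, ix k x = ix k y → χ k x = χ k y := by
      intro k x y h
      simp only [hχd, h]
    have hχ1 : ∀ x, ∑ k ∈ range n, χ k x ≤ 1 := by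
      intro x
      simp only [hχd]
      rw [← sum_filter, sum_const, nsmul_eq_mul]
      have h3 := cnt_card a n lam x
      have h4 : (((range n).filter fun k => a k (ix k x) ∧ cnt a n k (ix k x) ≤ lam).card : ℝ) ≤
          lam := by exact_mod_cast h3
      calc _ ≤ (lam : ℝ) * (lam : ℝ)⁻¹ := mul_le_mul_of_nonneg_right h4 (by positivity)
        _ = 1 := mul_inv_cancel₀ hl'.ne'
    have h5 := en_stop (Mx := Mx) (o := o) (x1 := x1) (s := s) he hW hχ0 hχ hχ1 T p w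
    have h6 := mul_le_mul_of_nonneg_left (h5.trans (mul_le_mul_of_nonneg_left hL he)) hl'.le
    refine le_trans (le_of_eq ?_) h6
    rw [mul_sum]
    refine sum_congr rfl fun k _ => ?_
    rw [mul_sum]
    refine sum_congr rfl fun x0 _ => ?_
    simp only [hχd]
    split_ifs
    · rw [← mul_assoc, mul_inv_cancel₀ hl'.ne', one_mul]
    · rw [zero_mul, mul_zero]

end

end Vale.Agent.P141.H185
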