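import Vale.Agent.P141.PL.Defs

/-!
# P141, line (A), T5a: the exact step of the Abel line on dyadic cells

`f p` = value (mean) on the cell `p` of the fine scale `k`, `cm f p` / `cd f p` = mean / half
difference on the cell `p` of the scale `k + 1`.  With `c k - 2 * c (k + 1) = d ∈ {0, 1, 2, 3}`
(`H588.Pl`) and the next digits `b1, b3` of `x1, x3` the tied cell of the scale `k` is
`2 * p + d - b1 - b3`; `s = 1 - 2 * b` = Haar sign.
-/

namespace Vale.Agent.P141.H185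

open Vale.Agent.P141.PL

noncomputable section

variable {V : Type*} [AddCommGroup V] [Module ℝ V]

/-- mean over the cell `p` of the scale `k + 1` -/
def cm (f : ℤ → V) (p : ℤ) : V := (1 / 2 : ℝ) • (f (2 * p) + f (2 * p + 1))

/-- half difference (left minus right) on the cell `p` of the scale `k + 1` -/
def cd (f : ℤ → V) (p : ℤ) : V := (1 / 2 : ℝ) • (f (2 * p) - f (2 * p + 1))

theorem f_left (f : ℤ → V) (p : ℤ) : f (2 * p) = cm f p + cd f p := by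
  unfold cm cd; module

theorem f_right (f : ℤ → V) (p : ℤ) : f (2 * p + 1) = cm f p - cd f p := by
  unfold cm cd; module

/-- The three-sign part of the step, `d = c k - 2 * c (k + 1)`. -/
def st3 (f : ℤ → V) (d p : ℤ) : V :=
  if d = 0 then (1 / 4 : ℝ) • (cd f p + (3 : ℝ) • cd f (p - 1))
  else if d = 1 then -((1 / 4 : ℝ) • ((3 : ℝ) • cd f p + cd f (p - 1)))
  else if d = 2 then (1 / 4 : ℝ) • (cd f (p + 1) + (3 : ℝ) • cd f p)
  else -((1 / 4 : ℝ) • ((3 : ℝ) • cd f (p + 1) + cd f p))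

/-- **`d = 0`**, cells `2p, 2p - 1, 2p - 2`. -/
theorem step0 (f : ℤ → V) (p b1 b3 : ℤ) (h1 : b1 = 0 ∨ b1 = 1) (h3 : b3 = 0 ∨ b3 = 1)
    (s1 s3 : ℝ) (e1 : s1 = 1 - 2 * b1) (e3 : s3 = 1 - 2 * b3) :
    f (2 * p + 0 - b1 - b3) - cm f p =
      (s1 * s3) • ((1 / 4 : ℝ) • (cd f p + (3 : ℝ) • cd f (p - 1)))
      + (s1 + s3) • ((1 / 4 : ℝ) • (cd f p - cd f (p - 1)))
      + (1 / 4 : ℝ) • (cd f p - cd f (p - 1))
      + (3 - s1 - s3 - s1 * s3) • ((1 / 4 : ℝ) • (cm f (p - 1) - cm f p)) := by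
  subst e1 e3
  rcases h1 with rfl | rfl <;> rcases h3 with rfl | rfl
  · rw [show 2 * p + 0 - 0 - 0 = 2 * p by ring, f_left f]; push_cast; module
  · rw [show 2 * p + 0 - 0 - 1 = 2 * (p - 1) + 1 by ring, f_right f]; push_cast; module
  · rw [show 2 * p + 0 - 1 - 0 = 2 * (p - 1) + 1 by ring, f_right f]; push_cast; module
  · rw [show 2 * p + 0 - 1 - 1 = 2 * (p - 1) by ring, f_left f]; push_cast; module

/-- **`d = 1`**, cells `2p + 1, 2p, 2p - 1`. -/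
theorem step1 (f : ℤ → V) (p b1 b3 : ℤ) (h1 : b1 = 0 ∨ b1 = 1) (h3 : b3 = 0 ∨ b3 = 1)
    (s1 s3 : ℝ) (e1 : s1 = 1 - 2 * b1) (e3 : s3 = 1 - 2 * b3) :
    f (2 * p + 1 - b1 - b3) - cm f p =
      (s1 * s3) • (-((1 / 4 : ℝ) • ((3 : ℝ) • cd f p + cd f (p - 1))))
      - (s1 + s3) • ((1 / 4 : ℝ) • (cd f p - cd f (p - 1)))
      + (1 / 4 : ℝ) • (cd f p - cd f (p - 1))
      + (1 - s1 - s3 + s1 * s3) • ((1 / 4 : ℝ) • (cm f (p - 1) - cm f p)) := by
  subst e1 e3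
  rcases h1 with rfl | rfl <;> rcases h3 with rfl | rfl
  · rw [show 2 * p + 1 - 0 - 0 = 2 * p + 1 by ring, f_right f]; push_cast; module
  · rw [show 2 * p + 1 - 0 - 1 = 2 * p by ring, f_left f]; push_cast; module
  · rw [show 2 * p + 1 - 1 - 0 = 2 * p by ring, f_left f]; push_cast; module
  · rw [show 2 * p + 1 - 1 - 1 = 2 * (p - 1) + 1 by ring, f_right f]; push_cast; module

/-- **`d = 2`**, cells `2p + 2, 2p + 1, 2p`. -/
theorem step2 (f : ℤ → V) (p b1 b3 : ℤ) (h1 : b1 = 0 ∨ b1 = 1) (h3 : b3 = 0 ∨ b3 = 1)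
    (s1 s3 : ℝ) (e1 : s1 = 1 - 2 * b1) (e3 : s3 = 1 - 2 * b3) :
    f (2 * p + 2 - b1 - b3) - cm f p =
      (s1 * s3) • ((1 / 4 : ℝ) • (cd f (p + 1) + (3 : ℝ) • cd f p))
      + (s1 + s3) • ((1 / 4 : ℝ) • (cd f (p + 1) - cd f p))
      + (1 / 4 : ℝ) • (cd f (p + 1) - cd f p)
      + (1 + s1 + s3 + s1 * s3) • ((1 / 4 : ℝ) • (cm f (p + 1) - cm f p)) := by
  subst e1 e3
  rcases h1 with rfl | rfl <;> rcases h3 with rfl | rfl
  · rw [show 2 * p + 2 - 0 - 0 = 2 * (p + 1) by ring, f_left f]; push_cast; module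
  · rw [show 2 * p + 2 - 0 - 1 = 2 * p + 1 by ring, f_right f]; push_cast; module
  · rw [show 2 * p + 2 - 1 - 0 = 2 * p + 1 by ring, f_right f]; push_cast; module
  · rw [show 2 * p + 2 - 1 - 1 = 2 * p by ring, f_left f]; push_cast; module

/-- **`d = 3`**, cells `2p + 3, 2p + 2, 2p + 1`. -/
theorem step3 (f : ℤ → V) (p b1 b3 : ℤ) (h1 : b1 = 0 ∨ b1 = 1) (h3 : b3 = 0 ∨ b3 = 1)
    (s1 s3 : ℝ) (e1 : s1 = 1 - 2 * b1) (e3 : s3 = 1 - 2 * b3) :
    f (2 * p + 3 - b1 - b3) - cm f p =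
      (s1 * s3) • (-((1 / 4 : ℝ) • ((3 : ℝ) • cd f (p + 1) + cd f p)))
      - (s1 + s3) • ((1 / 4 : ℝ) • (cd f (p + 1) - cd f p))
      + (1 / 4 : ℝ) • (cd f (p + 1) - cd f p)
      + (3 + s1 + s3 - s1 * s3) • ((1 / 4 : ℝ) • (cm f (p + 1) - cm f p)) := by
  subst e1 e3
  rcases h1 with rfl | rfl <;> rcases h3 with rfl | rfl
  · rw [show 2 * p + 3 - 0 - 0 = 2 * (p + 1) + 1 by ring, f_right f]; push_cast; module
  · rw [show 2 * p + 3 - 0 - 1 = 2 * (p + 1) by ring, f_left f]; push_cast; module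
  · rw [show 2 * p + 3 - 1 - 0 = 2 * (p + 1) by ring, f_left f]; push_cast; module
  · rw [show 2 * p + 3 - 1 - 1 = 2 * p + 1 by ring, f_right f]; push_cast; module

/-! ### One formula for all four cases -/

/-- weight of the plane difference of the half differences -/
def w1 (d : ℤ) (s1 s3 : ℝ) : ℝ := if d = 0 ∨ d = 2 then 1 + (s1 + s3) else 1 - (s1 + s3)

/-- weight of the plane difference of the means -/
def w2 (d : ℤ) (s1 s3 : ℝ) : ℝ :=
  if d = 0 then -(3 - s1 - s3 - s1 * s3) else if d = 1 then -(1 - s1 - s3 + s1 * s3)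
  else if d = 2 then 1 + s1 + s3 + s1 * s3 else 3 + s1 + s3 - s1 * s3

/-- the upper one of the two cells `sh d p - 1, sh d p` of the step -/
def sh (d p : ℤ) : ℤ := if d = 0 ∨ d = 1 then p else p + 1

/-- coefficients `(upper, lower)` of the three-sign part -/
def c3 (d : ℤ) : ℝ × ℝ := if d = 0 ∨ d = 2 then (1 / 4, 3 / 4) else (-(3 / 4), -(1 / 4))

/-- **T5a**: the step of the Abel line at one point, any admissible plane step `d`. -/
theorem stepD (f : ℤ → V) (d p b1 b3 : ℤ) (hd : 0 ≤ d ∧ d ≤ 3) (h1 : b1 = 0 ∨ b1 = 1)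
    (h3 : b3 = 0 ∨ b3 = 1) (s1 s3 : ℝ) (e1 : s1 = 1 - 2 * b1) (e3 : s3 = 1 - 2 * b3) :
    f (2 * p + d - b1 - b3) - cm f p =
      (s1 * s3) • ((c3 d).1 • cd f (sh d p) + (c3 d).2 • cd f (sh d p - 1))
      + (w1 d s1 s3 / 4) • (cd f (sh d p) - cd f (sh d p - 1))
      + (w2 d s1 s3 / 4) • (cm f (sh d p) - cm f (sh d p - 1)) := by
  obtain rfl | rfl | rfl | rfl : d = 0 ∨ d = 1 ∨ d = 2 ∨ d = 3 := by omega
  · rw [step0 f p b1 b3 h1 h3 s1 s3 e1 e3]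
    simp only [w1, w2, sh, c3, true_or, if_true]; module
  · rw [step1 f p b1 b3 h1 h3 s1 s3 e1 e3]
    simp only [w1, w2, sh, c3]
    norm_num
    module
  · rw [step2 f p b1 b3 h1 h3 s1 s3 e1 e3]
    simp only [w1, w2, sh, c3]
    norm_num
    module
  · rw [step3 f p b1 b3 h1 h3 s1 s3 e1 e3]
    simp only [w1, w2, sh, c3]
    norm_num
    module

theorem abs_w1_le {d : ℤ} {s1 s3 : ℝ} (h1 : s1 = 1 ∨ s1 = -1) (h3 : s3 = 1 ∨ s3 = -1) :
    |w1 d s1 s3| ≤ 3 := by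
  unfold w1
  rcases h1 with rfl | rfl <;> rcases h3 with rfl | rfl <;> split_ifs <;> norm_num [abs_le]

theorem abs_w2_le {d : ℤ} {s1 s3 : ℝ} (h1 : s1 = 1 ∨ s1 = -1) (h3 : s3 = 1 ∨ s3 = -1) :
    |w2 d s1 s3| ≤ 4 := by
  unfold w2
  rcases h1 with rfl | rfl <;> rcases h3 with rfl | rfl <;> split_ifs <;> norm_num [abs_le]

/-! ### At the points `x1, x3`, planes `c` -/

/-- the next digit -/
def dg (k : ℕ) (x : ℤ) : ℤ := ix k x % 2

theorem dg_cases (k : ℕ) (x : ℤ) : dg k x = 0 ∨ dg k x = 1 := by unfold dg; omega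

theorem ix_eq (k : ℕ) (x : ℤ) : ix k x = 2 * ix (k + 1) x + dg k x := by
  have h : ix (k + 1) x = ix k x / 2 := by
    rw [← ix_ix k 1 x]
    simp [ix]
  unfold dg
  rw [h]; omega

theorem hs_eq (k : ℕ) (x : ℤ) : hs (k + 1) x = 1 - 2 * (dg k x : ℝ) := by
  unfold hs
  rw [Nat.add_sub_cancel]
  rcases dg_cases k x with h | h
  · rw [if_pos (by unfold dg at h; exact h), h]; norm_num
  · rw [if_neg (by unfold dg at h; omega), h]; norm_num

/-- **The tie**: `p = c (k + 1) - ix (k + 1) x1 - ix (k + 1) x3` refines to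
`2 * p + (c k - 2 * c (k + 1)) - dg x1 - dg x3`. -/
theorem tie_eq (c : ℕ → ℤ) (k : ℕ) (x1 x3 : ℤ) :
    c k - ix k x1 - ix k x3 = 2 * (c (k + 1) - ix (k + 1) x1 - ix (k + 1) x3)
      + (c k - 2 * c (k + 1)) - dg k x1 - dg k x3 := by
  rw [ix_eq k x1, ix_eq k x3]; ring

/-- **T5a at points**: `f` = means of the cells of scale `k` (for fixed `x1, x3`). -/
theorem step_at (f : ℤ → V) (c : ℕ → ℤ) (k : ℕ)
    (hc : 0 ≤ c k - 2 * c (k + 1) ∧ c k - 2 * c (k + 1) ≤ 3) (x1 x3 : ℤ) :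
    f (c k - ix k x1 - ix k x3) - cm f (c (k + 1) - ix (k + 1) x1 - ix (k + 1) x3) =
      (hs (k + 1) x1 * hs (k + 1) x3) •
        ((c3 (c k - 2 * c (k + 1))).1 •
            cd f (sh (c k - 2 * c (k + 1)) (c (k + 1) - ix (k + 1) x1 - ix (k + 1) x3))
          + (c3 (c k - 2 * c (k + 1))).2 •
            cd f (sh (c k - 2 * c (k + 1)) (c (k + 1) - ix (k + 1) x1 - ix (k + 1) x3) - 1))
      + (w1 (c k - 2 * c (k + 1)) (hs (k + 1) x1) (hs (k + 1) x3) / 4) •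
        (cd f (sh (c k - 2 * c (k + 1)) (c (k + 1) - ix (k + 1) x1 - ix (k + 1) x3))
          - cd f (sh (c k - 2 * c (k + 1)) (c (k + 1) - ix (k + 1) x1 - ix (k + 1) x3) - 1))
      + (w2 (c k - 2 * c (k + 1)) (hs (k + 1) x1) (hs (k + 1) x3) / 4) •
        (cm f (sh (c k - 2 * c (k + 1)) (c (k + 1) - ix (k + 1) x1 - ix (k + 1) x3))
          - cm f (sh (c k - 2 * c (k + 1)) (c (k + 1) - ix (k + 1) x1 - ix (k + 1) x3) - 1)) := by
  rw [tie_eq c k x1 x3]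
  exact stepD f _ _ _ _ hc (dg_cases k x1) (dg_cases k x3) _ _ (hs_eq k x1) (hs_eq k x3)

/-- the planes `c k = o - 2 - ix k x0` -/
theorem plane_step (o : ℤ) (ho : o = 1 ∨ o = -1) (k : ℕ) (x0 : ℤ) :
    0 ≤ (o - 2 - ix k x0) - 2 * (o - 2 - ix (k + 1) x0) ∧
      (o - 2 - ix k x0) - 2 * (o - 2 - ix (k + 1) x0) ≤ 3 := by
  rw [ix_eq k x0]
  rcases dg_cases k x0 with h | h <;> rw [h] <;> rcases ho with rfl | rfl <;> constructor <;>
    linarith

end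

end Vale.Agent.P141.H185
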